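import Mathlib

namespace Vale.Agent.Results.P016.TruncatedArtin

open scoped NumberTheorySymbols

lemma jac_of_modEq (a : ℤ) {r p : ℕ} (hr : Odd r) (hp : Odd p)
    (h : p ≡ r [MOD 4 * a.natAbs]) : J(a | p) = J(a | r) := by
  rw [jacobiSym.mod_right a hp, jacobiSym.mod_right a hr, h]

lemma natAbs_le_two_of_no_odd_prime (s : ℕ) (hs : Squarefree s)
    (h : ∀ q : ℕ, q.Prime → q ∣ s → q = 2) : s = 1 ∨ s = 2 := by
  have hs0 : s ≠ 0 := hs.ne_zero
  have h2 : s = 2 ^ s.primeFactorsList.length :=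
    Nat.eq_prime_pow_of_unique_prime_dvd hs0 (fun {d} hd hds => h d hd hds)
  set k := s.primeFactorsList.length with hk
  rcases Nat.lt_or_ge k 2 with hk2 | hk2
  · interval_cases k
    · left; simpa using h2
    · right; simpa using h2
  · exfalso
    have : (2 : ℕ) * 2 ∣ s := by
      rw [h2]
      calc (2 : ℕ) * 2 = 2 ^ 2 := by norm_num
        _ ∣ 2 ^ k := pow_dvd_pow 2 hk2
    have := hs 2 this
    simp at this

lemma exists_jacobi_neg_one_of_squarefree (c : ℤ) (hc : Squarefree c.natAbs) (h1 : c ≠ 1) :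
    ∃ r0 : ℕ, Odd r0 ∧ J(c | r0) = -1 := by
  by_cases hodd : ∃ q : ℕ, q.Prime ∧ q ∣ c.natAbs ∧ q ≠ 2
  · obtain ⟨q, hq, hqc, hq2⟩ := hodd
    have : Fact q.Prime := ⟨hq⟩
    have hqc' : (q : ℤ) ∣ c := Int.natCast_dvd.mpr hqc
    obtain ⟨t, ht⟩ := hqc'
    have hc0 : c ≠ 0 := by
      intro h0; rw [h0] at hc; simp at hc
    have ht0 : t ≠ 0 := by
      rintro rfl; simp at ht; exact hc0 ht
    have hqt : ¬ q ∣ t.natAbs := by
      intro hdiv
      have : q * q ∣ c.natAbs := by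
        rw [ht, Int.natAbs_mul, Int.natAbs_natCast]
        exact Nat.mul_dvd_mul_left q hdiv
      have := hc q this
      exact hq.one_lt.ne' (Nat.isUnit_iff.mp this)
    have hqodd : Odd q := hq.odd_of_ne_two hq2
    have hcop : Nat.Coprime (4 * t.natAbs) q := by
      apply Nat.Coprime.symm
      rw [Nat.Prime.coprime_iff_not_dvd hq]
      intro hdiv
      rcases (Nat.Prime.dvd_mul hq).mp hdiv with h4 | h4
      · have : q ∣ 2 ^ 2 := by simpa using h4
        exact hq2 ((Nat.prime_dvd_prime_iff_eq hq Nat.prime_two).mp (hq.dvd_of_dvd_pow this))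
      · exact hqt h4
    obtain ⟨z, hz⟩ := FiniteField.exists_nonsquare (F := ZMod q)
      (by rw [ZMod.ringChar_zmod_n]; exact hq2)
    obtain ⟨x, hx1, hx2⟩ := Nat.chineseRemainder hcop 1 z.val
    have htpos : 0 < t.natAbs := Int.natAbs_pos.mpr ht0
    have hx4 : x % 4 = 1 := by
      have : x ≡ 1 [MOD 4] := hx1.of_mul_right _
      simpa [Nat.ModEq] using this
    have hxodd : Odd x := by
      rw [Nat.odd_iff]; omega
    refine ⟨x, hxodd, ?_⟩
    rw [ht, jacobiSym.mul_left]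
    have e1 : J(t | x) = 1 := by
      rw [jacobiSym.mod_right t hxodd, hx1]
      have : 1 % (4 * t.natAbs) = 1 := Nat.mod_eq_of_lt (by omega)
      rw [this, jacobiSym.one_right]
    have e2 : J((q : ℤ) | x) = -1 := by
      rw [jacobiSym.quadratic_reciprocity_one_mod_four' hqodd hx4]
      have : J((x : ℤ) | q) = J((z.val : ℤ) | q) := by
        apply jacobiSym.mod_left'
        exact_mod_cast hx2
      rw [this, ← jacobiSym.legendreSym.to_jacobiSym, legendreSym.eq_neg_one_iff]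
      simpa using hz
    rw [e1, e2]; norm_num
  · push Not at hodd
    have := natAbs_le_two_of_no_odd_prime c.natAbs hc (fun q hq hqc => hodd q hq hqc)
    have hcases : c = -1 ∨ c = 2 ∨ c = -2 := by
      rcases this with h | h
      · rcases Int.natAbs_eq c with h' | h' <;> rw [h] at h' <;> simp at h' <;> tauto
      · rcases Int.natAbs_eq c with h' | h' <;> rw [h] at h' <;> simp at h' <;> tauto
    rcases hcases with rfl | rfl | rfl
    · exact ⟨3, by decide, by norm_num⟩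
    · exact ⟨3, by decide, by norm_num⟩
    · exact ⟨5, by decide, by norm_num⟩

lemma exists_prime_jacobi_neg_one (a : ℤ) (ha : ¬ IsSquare a) (B : ℕ) :
    ∃ r : ℕ, B < r ∧ r.Prime ∧ Odd r ∧ J(a | r) = -1 := by
  have ha0 : a ≠ 0 := by
    rintro rfl; exact ha ⟨0, by simp⟩
  obtain ⟨s, b, hsb, hs⟩ := Nat.sq_mul_squarefree a.natAbs
  have hb0 : b ≠ 0 := by
    rintro rfl
    simp at hsb
    exact ha0 (Int.natAbs_eq_zero.mp hsb.symm)
  set c : ℤ := a.sign * s with hc
  have hac : a = c * (b : ℤ) ^ 2 := by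
    have h1 : a = a.sign * (a.natAbs : ℤ) := (Int.sign_mul_natAbs a).symm
    rw [hc]
    conv_lhs => rw [h1, ← hsb]
    push_cast; ring
  have hcabs : c.natAbs = s := by
    rw [hc, Int.natAbs_mul, Int.natAbs_sign_of_ne_zero ha0]; simp
  have hc1 : c ≠ 1 := by
    intro h
    apply ha
    rw [hac, h]
    exact ⟨b, by ring⟩
  obtain ⟨r0, hr0odd, hr0⟩ := exists_jacobi_neg_one_of_squarefree c (hcabs ▸ hs) hc1
  have hs0 : s ≠ 0 := hs.ne_zero
  have hr0cop : Nat.Coprime r0 (4 * s) := by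
    have hr00 : r0 ≠ 0 := by rintro rfl; simp at hr0odd
    have : NeZero r0 := ⟨hr00⟩
    have hg : c.gcd r0 = 1 := by
      by_contra hne
      have := (jacobiSym.eq_zero_iff_not_coprime (a := c) (b := r0)).mpr hne
      rw [this] at hr0; norm_num at hr0
    have hg' : Nat.Coprime s r0 := by
      rw [Int.gcd, hcabs] at hg
      simpa using hg
    apply Nat.Coprime.mul_right _ hg'.symm
    have : Nat.Coprime r0 2 := (Nat.coprime_two_right).mpr hr0odd
    simpa using Nat.Coprime.pow_right 2 this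
  obtain ⟨r, hrB, hrp, hrmod⟩ := Nat.forall_exists_prime_gt_and_modEq (max (max B b) 2)
    (q := 4 * s) (a := r0) (by positivity) hr0cop
  have hr2 : 2 < r := lt_of_le_of_lt (le_max_right _ _) hrB
  have hrb : b < r := lt_of_le_of_lt ((le_max_right _ _).trans (le_max_left _ _)) hrB
  have hrB' : B < r := lt_of_le_of_lt ((le_max_left _ _).trans (le_max_left _ _)) hrB
  have hrodd : Odd r := hrp.odd_of_ne_two hr2.ne'
  refine ⟨r, hrB', hrp, hrodd, ?_⟩
  rw [hac, jacobiSym.mul_left]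
  have e1 : J(c | r) = -1 := by
    rw [jac_of_modEq c hr0odd hrodd (by rw [hcabs]; exact hrmod), hr0]
  have e2 : J((b : ℤ) ^ 2 | r) = 1 := by
    apply jacobiSym.sq_one'
    rw [Int.gcd_natCast_natCast]
    apply Nat.Coprime.symm
    rw [Nat.Prime.coprime_iff_not_dvd hrp]
    intro hdiv
    exact absurd (Nat.le_of_dvd (Nat.pos_of_ne_zero hb0) hdiv) (not_le.mpr hrb)
  rw [e1, e2]; norm_num

lemma jac_pm_of_coprime (a : ℤ) (N t : ℕ) (hN : a.natAbs ∣ N) (ht : Nat.Coprime t N) :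
    J(a | t) = 1 ∨ J(a | t) = -1 := by
  apply jacobiSym.eq_one_or_neg_one
  rw [Int.gcd, Int.natAbs_natCast]
  exact (Nat.Coprime.coprime_dvd_right hN ht).symm

lemma exists_class_two_mod_three (a : ℤ) (ha : ¬ IsSquare a) (N : ℕ) (hN : 12 * a.natAbs ∣ N)
    (hN0 : N ≠ 0) :
    ∃ r0 : ℕ, Nat.Coprime r0 N ∧ r0 % 3 = 2 ∧ J(a | r0) = -1 := by
  obtain ⟨r1, hr1N, hr1p, hr1odd, hr1⟩ := exists_prime_jacobi_neg_one a ha N
  have haN : a.natAbs ∣ N := (Dvd.intro_left 12 rfl).trans hN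
  have h12 : 12 ∣ N := (Dvd.intro _ rfl).trans hN
  have hr1cop : Nat.Coprime r1 N := by
    rw [Nat.Prime.coprime_iff_not_dvd hr1p]
    intro hdiv
    exact absurd (Nat.le_of_dvd (Nat.pos_of_ne_zero hN0) hdiv) (not_le.mpr hr1N)
  have hN12 : 12 ≤ N := Nat.le_of_dvd (Nat.pos_of_ne_zero hN0) h12
  have htcop : Nat.Coprime (N - 1) N := by
    have : Nat.Coprime (N - 1) (N - 1 + 1) := by simp
    rwa [Nat.sub_add_cancel (by omega)] at this
  have ht3 : (N - 1) % 3 = 2 := by
    obtain ⟨k, rfl⟩ := h12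
    omega
  have hr13 : r1 % 3 = 1 ∨ r1 % 3 = 2 := by
    have h3 : Nat.Coprime r1 3 := Nat.Coprime.coprime_dvd_right ((by norm_num : 3 ∣ 12).trans h12) hr1cop
    have : ¬ 3 ∣ r1 := by
      intro h
      have := Nat.Coprime.eq_one_of_dvd h3.symm h
      omega
    omega
  rcases hr13 with h | h
  · rcases jac_pm_of_coprime a N (N - 1) haN htcop with ht | ht
    · refine ⟨r1 * (N - 1), Nat.Coprime.mul_left hr1cop htcop, ?_, ?_⟩
      · rw [Nat.mul_mod, h, ht3]
      · rw [jacobiSym.mul_right' a hr1p.ne_zero (by omega), hr1, ht]; norm_num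
    · exact ⟨N - 1, htcop, ht3, ht⟩
  · exact ⟨r1, hr1cop, h, hr1⟩

lemma exists_good_class (a : ℤ) (ha : ¬ IsSquare a) (N : ℕ) (hN : 12 * a.natAbs ∣ N)
    (hN0 : N ≠ 0) :
    ∃ r : ℕ, Nat.Coprime r N ∧ J(a | r) = -1 ∧
      ∀ l : ℕ, l.Prime → l ≠ 2 → l ∣ N → ¬ r ≡ 1 [MOD l] := by
  obtain ⟨r0, hr0cop, hr03, hr0⟩ := exists_class_two_mod_three a ha N hN hN0
  have haN : a.natAbs ∣ N := (Dvd.intro_left 12 rfl).trans hN
  obtain ⟨k, hk⟩ := Nat.chineseRemainderOfFinset
    (fun l : ℕ => if 5 ≤ l ∧ r0 % l = 1 then 2 else 1) (fun l : ℕ => l) N.primeFactors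
    (fun l hl => (Nat.prime_of_mem_primeFactors hl).ne_zero)
    (fun l hl m hm hlm => (Nat.coprime_primes (Nat.prime_of_mem_primeFactors hl)
      (Nat.prime_of_mem_primeFactors hm)).mpr hlm)
  have hkcop : Nat.Coprime k N := by
    apply Nat.Coprime.symm
    apply Nat.coprime_of_dvd
    intro l hl hlN hlk
    have hmem : l ∈ N.primeFactors := Nat.mem_primeFactors.mpr ⟨hl, hlN, hN0⟩
    have h1 := hk l hmem
    have h2 : k ≡ 0 [MOD l] := (Nat.modEq_zero_iff_dvd).mpr hlk
    have h3 := h2.symm.trans h1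
    split_ifs at h3 with hc
    · have : l ∣ 2 := (Nat.modEq_zero_iff_dvd).mp h3.symm
      have := Nat.le_of_dvd (by norm_num) this
      omega
    · have : l ∣ 1 := (Nat.modEq_zero_iff_dvd).mp h3.symm
      exact hl.one_lt.ne' (Nat.dvd_one.mp this)
  have hk0 : k ≠ 0 := by
    rintro rfl
    rw [Nat.coprime_zero_left] at hkcop
    have h12 : 12 ∣ N := (Dvd.intro _ rfl).trans hN
    rw [hkcop] at h12
    norm_num at h12
  have hr00 : r0 ≠ 0 := by rintro rfl; simp at hr03
  refine ⟨r0 * k ^ 2, Nat.Coprime.mul_left hr0cop (Nat.Coprime.pow_left 2 hkcop), ?_, ?_⟩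
  · rw [jacobiSym.mul_right' a hr00 (pow_ne_zero 2 hk0), jacobiSym.pow_right, hr0]
    rcases jac_pm_of_coprime a N k haN hkcop with h | h <;> rw [h] <;> norm_num
  · intro l hl hl2 hlN hmod
    have hmem : l ∈ N.primeFactors := Nat.mem_primeFactors.mpr ⟨hl, hlN, hN0⟩
    have h1 := hk l hmem
    have h2 : r0 * k ^ 2 ≡ r0 * (if 5 ≤ l ∧ r0 % l = 1 then 2 else 1) ^ 2 [MOD l] :=
      Nat.ModEq.mul_left _ (h1.pow 2)
    have h3 := hmod.symm.trans h2
    split_ifs at h3 with hc
    ·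
      have h4 : r0 ≡ 1 [MOD l] := by
        have : 1 % l = 1 := Nat.mod_eq_of_lt hl.one_lt
        rw [Nat.ModEq, hc.2, this]
      have h5 : 1 ≡ 1 * 2 ^ 2 [MOD l] := h3.trans (Nat.ModEq.mul_right _ h4)
      have h6 : l ∣ 1 * 2 ^ 2 - 1 := (Nat.modEq_iff_dvd' (by norm_num)).mp h5
      norm_num at h6
      have := Nat.le_of_dvd (by norm_num) h6
      omega
    · have h4 : 1 ≡ r0 [MOD l] := by simpa using h3
      have h5 : r0 % l = 1 := by
        have : 1 % l = 1 := Nat.mod_eq_of_lt hl.one_lt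
        rw [← h4, this]
      have hl5 : ¬ 5 ≤ l := fun h => hc ⟨h, h5⟩
      have hl3 : l = 3 := by
        have := hl.two_le
        interval_cases l
        · exact absurd rfl hl2
        · rfl
        · norm_num at hl
      subst hl3
      omega

theorem result (a : ℤ) (ha : ¬ IsSquare a) (M : ℕ) (hM : 0 < M) :
    {p : ℕ | p.Prime ∧ ¬ (p : ℤ) ∣ a ∧
      Nat.Coprime ((p - 1) / orderOf (a : ZMod p)) M}.Infinite := by
  have ha0 : a ≠ 0 := by
    rintro rfl; exact ha ⟨0, by simp⟩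
  set N := 12 * a.natAbs * M with hNdef
  have hN0 : N ≠ 0 := by
    have : 0 < a.natAbs := Int.natAbs_pos.mpr ha0
    positivity
  have hN : 12 * a.natAbs ∣ N := Dvd.intro _ rfl
  obtain ⟨r, hrcop, hr, hrl⟩ := exists_good_class a ha N hN hN0
  apply Set.infinite_of_forall_exists_gt
  intro n
  obtain ⟨p, hpn, hp, hpmod⟩ := Nat.forall_exists_prime_gt_and_modEq n hN0 hrcop
  refine ⟨p, ⟨hp, ?_, ?_⟩, hpn⟩
  all_goals
    have : Fact p.Prime := ⟨hp⟩
    have hpcop : Nat.Coprime p N := by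
      have := hpmod.gcd_eq
      rw [Nat.Coprime, this]; exact hrcop
    have h2N : 2 ∣ N := (by norm_num : 2 ∣ 12).trans ((Dvd.intro _ rfl).trans hN)
    have haN : a.natAbs ∣ N := (Dvd.intro_left 12 rfl).trans hN
    have hpa : ¬ (p : ℤ) ∣ a := by
      intro hdiv
      have h1 : p ∣ a.natAbs := Int.natCast_dvd.mp hdiv
      have h2 : p ∣ N := h1.trans haN
      have := Nat.Coprime.eq_one_of_dvd hpcop h2
      exact hp.one_lt.ne' this
  · exact hpa
  · have hodd_of_cop : ∀ x : ℕ, Nat.Coprime x N → Odd x := by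
      intro x hx
      exact (Nat.coprime_two_right).mp (Nat.Coprime.coprime_dvd_right h2N hx)
    have hpodd := hodd_of_cop p hpcop
    have hrodd := hodd_of_cop r hrcop
    have hJ : J(a | p) = -1 := by
      rw [jac_of_modEq a hrodd hpodd _, hr]
      apply hpmod.of_dvd
      rw [hNdef]
      exact ⟨3 * M, by ring⟩
    have hleg : legendreSym p a = -1 := by
      rw [jacobiSym.legendreSym.to_jacobiSym]; exact hJ
    have hpow : (a : ZMod p) ^ (p / 2) = -1 := by
      have := legendreSym.eq_pow p a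
      rw [hleg] at this
      rw [← this]; simp
    have ha' : (a : ZMod p) ≠ 0 := by
      intro h
      exact hpa ((ZMod.intCast_zmod_eq_zero_iff_dvd a p).mp h)
    have hord : orderOf (a : ZMod p) ∣ p - 1 := ZMod.orderOf_dvd_card_sub_one ha'
    apply Nat.coprime_of_dvd
    intro l hl hli hlM
    have hidvd : (p - 1) / orderOf (a : ZMod p) ∣ p - 1 := Nat.div_dvd_of_dvd hord
    by_cases hl2 : l = 2
    · subst hl2
      obtain ⟨j, hj⟩ := hli
      have h1 : p - 1 = orderOf (a : ZMod p) * (2 * j) := by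
        rw [← hj, Nat.mul_div_cancel' hord]
      have h2 : p / 2 = orderOf (a : ZMod p) * j := by
        have hp2 := hp.two_le
        obtain ⟨m, hm⟩ := hpodd
        have : p - 1 = 2 * (orderOf (a : ZMod p) * j) := by rw [h1]; ring
        omega
      rw [h2, pow_mul, pow_orderOf_eq_one, one_pow] at hpow
      have hp2 : p ≠ 2 := by
        rintro rfl
        exact absurd hpodd (by decide)
      have : (2 : ZMod p) = 0 := by
        have h3 : (1 : ZMod p) + 1 = 0 := by
          nth_rewrite 1 [hpow]; ring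
        rw [← h3]; norm_num
      have h4 : ((2 : ℕ) : ZMod p) = 0 := by exact_mod_cast this
      rw [ZMod.natCast_eq_zero_iff] at h4
      exact hp2 ((Nat.prime_dvd_prime_iff_eq hp Nat.prime_two).mp h4)
    · have hlN : l ∣ N := hlM.trans (Dvd.intro_left _ rfl)
      apply hrl l hl hl2 hlN
      have h1 : l ∣ p - 1 := hli.trans hidvd
      have h2 : 1 ≡ p [MOD l] := (Nat.modEq_iff_dvd' hp.one_lt.le).mpr h1
      exact ((hpmod.of_dvd hlN).symm.trans h2.symm)

end Vale.Agent.Results.P016.TruncatedArtin
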